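import Vale.Agent.P106.R.C.Pw
import Vale.Agent.P106.R.E.Defs

/-! # P106 / R / S : interface between [RG], [EN] and [CORE] on the truncated cone, price `N` (helper315)

Copy of `P122 / S / Prof` : the number `3` is `N + 1`, the violation is `N δ`, the thickness `h` is a parameter. -/

set_option autoImplicit false

namespace Vale.Agent.P106.R.S

open Vale.Agent.P106.R.C2 Vale.Agent.P106.R.E
open Vale.Agent.P106.W (Cbx)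

/-- `StCORE N` with `C' = 1` is violated for arbitrarily large `n` (thickness `h`) -/
def Viol (N δ : ℝ) (K h : ℕ) (C : ℝ) : Prop := ∀ n0 : ℕ, ∃ n : ℕ, n0 ≤ n ∧ ∃ (F : Amp C n K) (Λ Q : ℝ),
  F.s.h = h ∧ 0 ≤ Λ ∧ KTop F Λ ∧ (∀ U : Finset Nd, ∑ S ∈ U, F.a K S ^ 2 ≤ Q) ∧
  ∃ X : Finset Nd, (∀ x ∈ X, x.τ = 0 ∧ 0 ≤ x.T ∧ x.T < 2 ^ (2 * K * n)) ∧
    2 ^ (δ * (K * n)) * rt N Λ * 2 ^ (4 * K * n) * Q < ∑ x ∈ X, Vale.Agent.P106.R.C2.pw N (F.a 0 x)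

/-- [RG] : a violating sequence gives a regular system of flags which violates the real variable inequality -/
def StRG (N κ : ℝ) : Prop := ∀ C₀ : ℝ, 1 ≤ C₀ → E8 κ C₀ → ∀ (δ c1 : ℝ), 0 < δ → 0 < c1 → ∃ K1 : ℕ, 1 ≤ K1 ∧
  ∀ K : ℕ, K1 ≤ K → ∀ h : ℕ, 2 ≤ h → h ≤ K → ∀ C : ℝ, 1 ≤ C → Viol N δ K h C →
    ∃ (F : Flg K) (J θ H e : ℕ → ℝ) (W : ℕ → F.S.RV Cbx) (kk jj : ℕ → ℕ → ℕ) (φ : ℕ → ℕ → Nd → ℝ) (JF : ℕ → ℝ),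
      F.h = h ∧ RegB F J θ H e W kk jj κ c1 φ JF ∧ nV K H e 0 + (N + 1) * nE K J θ H K + N * δ ≤ nV K H e K

/-- the blocks with constants -/
def StE5 (A : ℝ) : Prop := ∃ C : ℝ, E5 A C
def StE6 (A : ℝ) : Prop := ∃ C : ℝ, E6 A C
def StE7 (A : ℝ) : Prop := ∃ C : ℝ, E7 A C
def StE8 : Prop := ∃ κ : ℝ, 0 < κ ∧ ∃ C : ℝ, E8 κ C
/-- `E9` is not monotone in `κ` (the hypothesis `RegB` and the sum `ng` depend on `κ`) -/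
def StE9 (A : ℝ) : Prop := ∃ κ0 : ℝ, 0 < κ0 ∧ ∀ κ : ℝ, 0 < κ → κ ≤ κ0 → ∃ C : ℝ, E9 A κ C

end Vale.Agent.P106.R.S
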