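import Vale.Agent.P106.R.S.Defs
import Vale.Agent.P106.W518.RVA

/-! # P106 / R / S : the profile of a regular system (copy of P122 / H563 / Prof; helper315)

`prof_of_regB` : E1, E2, E5, E6, E7, E9 give 518's `ProfA` for the numbers of a `RegB` system. -/

set_option autoImplicit false

namespace Vale.Agent.P106.R.S

open Filter Topology Finset Vale.Agent.P127 Vale.Agent.P127.Stk Vale.Agent.P127.U Vale.Agent.P127.U.Sys
  Vale.Agent.P106.R.C2 Vale.Agent.P106.R.E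
open Vale.Agent.P106.W (Cbx)

variable {K : ℕ}

theorem nM_sub (J : ℕ → ℝ) {i j : ℕ} (h : i ≤ j) : nM J j - nM J i = ∑ k ∈ Ico i j, J k := by
  unfold nM
  rw [Finset.sum_Ico_eq_sub _ h]

theorem sum_lip {J : ℕ → ℝ} {i j : ℕ} {a : ℝ} (h : i ≤ j) (hJ : ∀ c, i ≤ c → c < j → J c ≤ a) :
    ∑ k ∈ Ico i j, J k ≤ a * ((j : ℝ) - i) := by
  calc ∑ k ∈ Ico i j, J k ≤ ∑ k ∈ Ico i j, a := Finset.sum_le_sum fun k hk => by
        rw [Finset.mem_Ico] at hk
        exact hJ k hk.1 hk.2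
    _ = a * ((j : ℝ) - i) := by
        rw [Finset.sum_const, Nat.card_Ico, nsmul_eq_mul, Nat.cast_sub h]
        ring

/-- the support is not empty -/
theorem exists_supp {Ω : Type} [Fintype Ω] (P : Law Ω) : ∃ ω, 0 < P.w ω := by
  by_contra hcon
  push Not at hcon
  have : ∑ ω, P.w ω ≤ 0 := Finset.sum_nonpos fun ω _ => hcon ω
  rw [P.sum_one] at this
  linarith

/-- `n / L = 1 / K` eventually -/
theorem n_pos (F : Flg K) : ∀ᶠ i in (uf : Filter ℕ), (0 : ℝ) < F.n i ∧ (F.S.L i : ℝ) = K * F.n i := by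
  filter_upwards [F.S.L_pos] with i hi
  have h1 : (0 : ℝ) < F.S.L i := by exact_mod_cast hi
  have h2 : (F.S.L i : ℝ) = K * F.n i := by rw [F.L_eq i]; push_cast; ring
  refine ⟨?_, h2⟩
  rcases Nat.eq_zero_or_pos (F.n i) with h | h
  · rw [h2, h] at h1
    simp at h1
  · exact_mod_cast h

/-- limit of `k / L` for `k ≤ c n` -/
theorem nu_le (F : Flg K) (hK : 1 ≤ K) (c : ℕ) (k : ℕ → ℕ) (h : ∀ᶠ i in (uf : Filter ℕ), k i ≤ c * F.n i) :
    0 ≤ F.S.nu k ∧ F.S.nu k ≤ (c : ℝ) / K := by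
  have hKp : (0 : ℝ) < K := by exact_mod_cast hK
  have h1 : ∀ᶠ i in (uf : Filter ℕ), (k i : ℝ) / F.S.L i ≤ (c : ℝ) / K := by
    filter_upwards [n_pos F, h] with i hi hk
    rw [hi.2, div_le_div_iff₀ (mul_pos hKp hi.1) hKp]
    have : (k i : ℝ) ≤ c * F.n i := by exact_mod_cast hk
    nlinarith
  have h0 : ∀ᶠ i in (uf : Filter ℕ), 0 ≤ (k i : ℝ) / F.S.L i := Eventually.of_forall fun i => by positivity
  have hb : UB fun i => (k i : ℝ) / F.S.L i := UB.of_le h0 h1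
  exact ⟨const_le_ulim hb h0, ulim_le_const hb h1⟩

/-- the number of children -/
theorem hc_kids (F : Flg K) (hK : 1 ≤ K) {c : ℕ} (hc : c < K) : F.S.hc (F.Y (c + 1)) (F.N c) ≤ 2 / K := by
  have hKp : (0 : ℝ) < K := by exact_mod_cast hK
  have key : ∀ i, Stk.hc (F.S.P i) (F.Y (c + 1) i) (F.N c i) ≤ 2 * F.n i * Real.log 2 := by
    intro i
    have h1 := Stk.hc_le_log (F.S.P i) (F.Y (c + 1) i) (F.N c i) (2 ^ (2 * F.n i)) fun ω hω =>
      ⟨kids (F.n i) (F.N c i ω).τ, le_of_eq ?_, fun ω' hω' e => ?_⟩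
    · refine h1.trans (le_of_eq ?_)
      push_cast
      rw [Real.log_pow]
      push_cast
      ring
    · unfold kids
      rw [Fintype.card_piFinset]
      simp only [Int.card_Ico, Fin.prod_univ_two]
      have h : ∀ k, (2 ^ F.n i * ((F.N c i ω).τ k + 1) - 2 ^ F.n i * (F.N c i ω).τ k : ℤ).toNat = 2 ^ F.n i := by
        intro k
        have : (2 ^ F.n i * ((F.N c i ω).τ k + 1) - 2 ^ F.n i * (F.N c i ω).τ k : ℤ) = ((2 ^ F.n i : ℕ) : ℤ) := by
          push_cast; ring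
        rw [this, Int.toNat_natCast]
      rw [h, h, two_mul, pow_add]
    · have := (F.step i ω' hω' c hc).1
      rw [e] at this
      exact this
  have hl2 : 0 < Real.log 2 := Real.log_pos (by norm_num)
  have h1 : ∀ᶠ i in (uf : Filter ℕ), Stk.hc (F.S.P i) (F.Y (c + 1) i) (F.N c i) / F.S.nm i ≤ 2 / K := by
    filter_upwards [n_pos F] with i hi
    unfold Sys.nm
    rw [hi.2, div_le_div_iff₀ (mul_pos (mul_pos hKp hi.1) hl2) hKp]
    nlinarith [key i]
  have h0 : ∀ᶠ i in (uf : Filter ℕ), 0 ≤ Stk.hc (F.S.P i) (F.Y (c + 1) i) (F.N c i) / F.S.nm i := by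
    filter_upwards [F.S.nm_pos] with i hi
    exact div_nonneg (Stk.hc_nonneg _ _ _) hi.le
  exact ulim_le_const (UB.of_le h0 h1) h1

/-- short windows -/
theorem win {K h : ℕ} {w : ℝ} (hw : 2 * w * K ≤ h) {a b : ℕ} (hab : (a : ℝ) - b ≤ w * K) : 2 * (a - b) ≤ h := by
  rcases le_total a b with h1 | h1
  · rw [Nat.sub_eq_zero_of_le h1]
    omega
  · have h2 : ((2 * (a - b) : ℕ) : ℝ) ≤ (h : ℝ) := by
      push_cast [Nat.cast_sub h1]
      linarith
    exact_mod_cast h2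

/-- **the profile of a regular system** -/
theorem prof_of_regB {A κ C₀ c1 w : ℝ} (h1 : E1) (h2 : E2) (h5 : E5 A C₀) (h6 : E6 A C₀) (h7 : E7 A C₀) (h9 : E9 A κ C₀)
    (hK : 1 ≤ K) (hc1 : 0 < c1) (hC : C₀ / K ≤ c1) (hκ1 : κ ≤ 1) (hc1w : c1 ≤ w) {F : Flg K} (hw : 2 * w * K ≤ F.h)
    {J θ H e : ℕ → ℝ} {W : ℕ → F.S.RV Cbx} {kk jj : ℕ → ℕ → ℕ}
    {φ : ℕ → ℕ → Nd → ℝ} {JF : ℕ → ℝ} (hB : RegB F J θ H e W kk jj κ c1 φ JF) :
    Vale.Agent.P106.W518.ProfA (A + 1) w C₀ κ c1 K (nV K H e) (nE K J θ H) (nM J) e (nα F jj) (ng F e jj κ c1 JF) := by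
  classical
  have hKp : (0 : ℝ) < K := by exact_mod_cast hK
  have hA := hB.toRegA
  have hJ2 : ∀ c, c < K → J c ≤ 2 / K := fun c hc => by
    have g1 := (h1 F J θ H e W kk jj hK hA).2.1 c (c + 1) (Nat.le_succ c) hc
    have g2 := hc_kids F hK hc
    have g3 := nM_sub J (Nat.le_succ c)
    rw [Nat.succ_eq_add_one, Nat.Ico_succ_singleton, Finset.sum_singleton] at g3
    linarith
  obtain ⟨h51, h52, h53⟩ := h5 F J θ H e W kk jj hK hA
  refine ⟨?_, h2 F J θ H e W kk jj hK hA, fun i j hij hj => ?_, fun i j hij hj => ?_, fun i j hij hj => ?_,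
    fun i j hij hj => ?_, hA.e0, h51, fun i hi => ?_, h52, h53,
    fun c i j hij h2 hj hc2 hc w1 w2 w3 hal => ?_, fun i j hij h2 hj w1 => ?_, fun i j u hij h2 hj hu hk ht ha => ?_⟩
  · unfold nE nM
    simp
  · have g1 := nM_sub J hij
    have g2 : 0 ≤ ∑ k ∈ Ico i j, J k := Finset.sum_nonneg fun k hk => by
      rw [Finset.mem_Ico] at hk
      exact hA.J0 k (hk.2.trans_le hj)
    linarith
  · rw [nM_sub J hij]
    calc _ ≤ 2 / K * ((j : ℝ) - i) := sum_lip hij fun c _ hc => hJ2 c (hc.trans_le hj)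
      _ = _ := by ring
  · unfold ng
    refine Finset.sum_le_sum_of_subset_of_nonneg (Finset.range_mono hij) fun k hk _ => ?_
    rw [Finset.mem_range] at hk
    split_ifs
    · exact hB.JF0 k (hk.trans_le hj)
    · exact le_rfl
  · unfold ng
    rw [← Finset.sum_Ico_eq_sub _ hij]
    calc _ ≤ 2 / K * ((j : ℝ) - i) := sum_lip hij fun c _ hc => ?_
      _ = _ := by ring
    split_ifs
    · refine (hB.JF1 c (hc.trans_le hj)).trans ?_
      gcongr
      norm_num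
    · positivity
  · have g1 : ∀ᶠ n in (uf : Filter ℕ), jj i n ≤ i * F.n n := by
      filter_upwards [hA.Wok i hi] with n hn
      obtain ⟨ω, hω⟩ := exists_supp (F.S.P n)
      exact (hn ω hω).2.2.2.2.2
    have g2 := (nu_le F hK i (jj i) g1).2
    unfold nα
    have g3 : (2 : ℝ) * i / K = (i : ℝ) / K + (i : ℝ) / K := by ring
    linarith
  · have w3' : (c : ℝ) - i ≤ w * K := (le_abs_self _).trans w3
    exact h6 F J θ H e W kk jj hK hA c i j hij h2 hj hc2 hc (win hw w1) (win hw w2) (win hw w3') hal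
  · exact h7 F J θ H e W kk jj hK hA i j hij h2 hj (win hw w1)
  · have w1 : (j : ℝ) - i ≤ w * K := by
      rw [div_le_iff₀ hKp] at hk
      have g1 : κ * c1 ≤ w := by nlinarith
      nlinarith
    exact h9 F J θ H e W kk jj c1 φ JF hK hc1 hC hB i j u hij h2 hj hu (win hw w1) hk ht ha

end Vale.Agent.P106.R.S
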