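import Vale.Agent.P106.R.C.Defs2
import Vale.Agent.P106.W.Split

/-! # P106 / R / S : from the amplitudes of `P106 / W / Defs` (117) to those of `P106 / R` (helper315) -/

set_option autoImplicit false

namespace Vale.Agent.P106.R.S

open Vale.Agent.P106.R.C2

theorem toW_inj : Function.Injective Nd.toW := by
  intro S S' h
  unfold Nd.toW at h
  simp only [W.Nd.mk.injEq, Vale.Agent.P122.C2.Nd.mk.injEq] at h
  ext1
  · exact h.1.1
  · exact h.1.2.1
  · exact h.1.2.2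
  · exact h.2

/-- the embedding of the nodes -/
def emb : Nd ↪ W.Nd := ⟨Nd.toW, toW_inj⟩

theorem toW_sg (n : ℕ) (S : Nd) : (S.sg n).toW = S.toW.sg n := rfl

theorem toW_ch (n h i : ℕ) (σ : Nd) (τ' : Z2) : (σ.ch (coneSl n h) n i τ').toW = σ.toW.ch n h i τ' := by
  unfold Nd.ch W.Nd.ch Nd.toW coneSl Vale.Agent.P122.C2.Nd.ch
  simp only [W.Nd.mk.injEq, true_and]
  rw [Int.floor_intCast_add]

theorem abs_floor_le (x : ℝ) : |((⌊x⌋ : ℤ) : ℝ)| ≤ |x| + 1 := by
  have h1 := Int.floor_le x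
  have h2 := Int.lt_floor_add_one x
  rw [abs_le]
  constructor
  · have := neg_abs_le x
    linarith
  · have := le_abs_self x
    linarith

theorem kid_bd {n : ℕ} {τ τ' : Z2} (h : τ' ∈ kids n τ) (k : Fin 2) : |((τ' k : ℝ)) - 2 ^ n * (τ k : ℝ)| ≤ 2 ^ n := by
  unfold kids at h
  rw [Fintype.mem_piFinset] at h
  have h1 := h k
  rw [Finset.mem_Ico] at h1
  have a1 : ((2 : ℝ) ^ n * (τ k : ℝ)) ≤ τ' k := by exact_mod_cast h1.1
  have a2 : (τ' k : ℝ) < 2 ^ n * ((τ k : ℝ) + 1) := by exact_mod_cast h1.2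
  rw [abs_le]
  constructor
  · have : (0 : ℝ) ≤ 2 ^ n := by positivity
    linarith
  · linarith

/-- the slopes and shifts of the cone -/
theorem slp_cone (n K h : ℕ) {C : ℝ} (hC : 3 ≤ C) : Slp C n K (coneSl n h) := by
  have hval : ∀ i τ k, (coneSl n h) i τ k = (τ k : ℝ) / 2 ^ (i * n) := fun _ _ _ => rfl
  refine ⟨fun i τ k _ hτ => ?_, fun i τ k _ hτ => ?_, fun i τ τ' k _ _ _ => ?_, fun i τ τ' _ _ _ => ?_,
    fun i τ o T τ' hi hτ hτ' => ?_, rfl⟩
  · rw [hval, abs_of_nonneg (div_nonneg (by exact_mod_cast (hτ k).1) (by positivity)), div_le_one (by positivity)]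
    exact_mod_cast (hτ k).2.le
  · rw [hval, hval]
    have h1 : ((par n τ k : ℤ) : ℝ) = ((τ k / 2 ^ n : ℤ) : ℝ) := rfl
    rw [h1]
    have h2 : ((τ k / 2 ^ n : ℤ) : ℝ) * 2 ^ n ≤ τ k := by
      exact_mod_cast Int.ediv_mul_le (τ k) (by positivity)
    have h3 : (τ k : ℝ) < (((τ k / 2 ^ n : ℤ) : ℝ) + 1) * 2 ^ n := by
      exact_mod_cast Int.lt_ediv_add_one_mul_self (τ k) (by positivity)
    have e : (τ k : ℝ) / 2 ^ ((i + 1) * n) - ((τ k / 2 ^ n : ℤ) : ℝ) / 2 ^ (i * n) =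
        ((τ k : ℝ) - ((τ k / 2 ^ n : ℤ) : ℝ) * 2 ^ n) / 2 ^ n / 2 ^ (i * n) := by
      rw [add_mul, one_mul, pow_add]
      field_simp
    rw [e, abs_div, abs_of_pos (show (0 : ℝ) < 2 ^ (i * n) by positivity)]
    apply div_le_div_of_nonneg_right _ (by positivity)
    rw [abs_div, abs_of_pos (show (0 : ℝ) < 2 ^ n by positivity), abs_of_nonneg (by linarith), div_le_iff₀ (by positivity)]
    nlinarith [show (0 : ℝ) < 2 ^ n by positivity]
  · rw [hval, hval, ← sub_div, abs_div, abs_of_pos (show (0 : ℝ) < 2 ^ (i * n) by positivity)]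
    apply div_le_div_of_nonneg_right _ (by positivity)
    have h0 := abs_nonneg ((τ 0 : ℝ) - τ' 0)
    have h1 := abs_nonneg ((τ 1 : ℝ) - τ' 1)
    have h2 : |(τ k : ℝ) - τ' k| ≤ |(τ 0 : ℝ) - τ' 0| + |(τ 1 : ℝ) - τ' 1| := by
      fin_cases k <;> simp
    nlinarith
  · rw [hval, hval, hval, hval, ← sub_div, ← sub_div, abs_div, abs_div,
      abs_of_pos (show (0 : ℝ) < 2 ^ (i * n) by positivity), ← add_div, mul_div_cancel₀ _ (by positivity)]
    have h0 := abs_nonneg ((τ 0 : ℝ) - τ' 0)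
    have h1 := abs_nonneg ((τ 1 : ℝ) - τ' 1)
    nlinarith
  · show |(((⌊W.tl n h ⟨τ, o, T⟩ τ'⌋ : ℤ)) : ℝ)| ≤ _
    refine (abs_floor_le _).trans ?_
    have hp : ∀ m : ℕ, (1 : ℝ) ≤ 2 ^ m := fun m => one_le_pow₀ (by norm_num)
    -- one coordinate
    have hk : ∀ k, |-((o k : ℝ) - (T : ℝ) * (τ k : ℝ) / 2 ^ n) * ((τ' k : ℝ) - 2 ^ n * (τ k : ℝ)) +
        (T : ℝ) * ((τ' k : ℝ) - 2 ^ n * (τ k : ℝ)) ^ 2 / 2 ^ (2 * n + 1)| ≤
        2 ^ ((i + 1) * n) * |(o k : ℝ)| + 3 / 2 * (2 ^ (2 * i * n) * |(T : ℝ)|) := by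
      intro k
      have d := kid_bd hτ' k
      set D : ℝ := (τ' k : ℝ) - 2 ^ n * (τ k : ℝ) with hD
      have d0 := abs_nonneg D
      have t0 := abs_nonneg (T : ℝ)
      have o0 := abs_nonneg (o k : ℝ)
      have c0 : (0 : ℝ) ≤ τ k := by exact_mod_cast (hτ k).1
      have c1 : (τ k : ℝ) ≤ 2 ^ (i * n) := by exact_mod_cast (hτ k).2.le
      have p1 : (2 : ℝ) ^ n ≤ 2 ^ ((i + 1) * n) := pow_le_pow_right₀ (by norm_num) (by nlinarith)
      have p2 : (2 : ℝ) ^ (i * n) ≤ 2 ^ (2 * i * n) := pow_le_pow_right₀ (by norm_num) (by nlinarith)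
      have a1 : |-((o k : ℝ) - (T : ℝ) * (τ k : ℝ) / 2 ^ n) * D| ≤ 2 ^ ((i + 1) * n) * |(o k : ℝ)| + 2 ^ (2 * i * n) * |(T : ℝ)| := by
        have e : -((o k : ℝ) - (T : ℝ) * (τ k : ℝ) / 2 ^ n) * D = -((o k : ℝ) * D) + (T : ℝ) * (τ k : ℝ) * (D / 2 ^ n) := by
          field_simp
          ring
        rw [e]
        refine (abs_add_le _ _).trans (add_le_add ?_ ?_)
        · rw [abs_neg, abs_mul]
          nlinarith [mul_le_mul_of_nonneg_left (d.trans p1) o0]
        · rw [abs_mul, abs_mul, abs_of_nonneg c0]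
          have : |D / 2 ^ n| ≤ 1 := by
            rw [abs_div, abs_of_pos (show (0 : ℝ) < 2 ^ n by positivity), div_le_one (by positivity)]
            exact d
          calc |(T : ℝ)| * τ k * |D / 2 ^ n| ≤ |(T : ℝ)| * τ k * 1 := mul_le_mul_of_nonneg_left this (by positivity)
            _ ≤ 2 ^ (2 * i * n) * |(T : ℝ)| := by
              rw [mul_one, mul_comm]
              exact mul_le_mul_of_nonneg_right (c1.trans p2) t0
      have a2 : |(T : ℝ) * D ^ 2 / 2 ^ (2 * n + 1)| ≤ 1 / 2 * (2 ^ (2 * i * n) * |(T : ℝ)|) := by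
        rw [abs_div, abs_mul, abs_of_nonneg (sq_nonneg D), abs_of_pos (show (0 : ℝ) < 2 ^ (2 * n + 1) by positivity),
          div_le_iff₀ (by positivity)]
        have q : D ^ 2 ≤ 2 ^ (2 * n) := by
          calc D ^ 2 = |D| ^ 2 := (sq_abs D).symm
            _ ≤ (2 ^ n) ^ 2 := pow_le_pow_left₀ d0 d 2
            _ = _ := by rw [← pow_mul]; ring_nf
        have q1 := hp (2 * i * n)
        calc |(T : ℝ)| * D ^ 2 ≤ |(T : ℝ)| * 2 ^ (2 * n) := mul_le_mul_of_nonneg_left q t0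
          _ ≤ (2 ^ (2 * i * n) * |(T : ℝ)|) * 2 ^ (2 * n) :=
            mul_le_mul_of_nonneg_right (by nlinarith) (by positivity)
          _ = 1 / 2 * (2 ^ (2 * i * n) * |(T : ℝ)|) * 2 ^ (2 * n + 1) := by rw [pow_succ]; ring
      refine (abs_add_le _ _).trans ?_
      linarith
    have hs : |W.tl n h ⟨τ, o, T⟩ τ'| ≤ 2 ^ ((i + 1) * n) * (|(o 0 : ℝ)| + |(o 1 : ℝ)|) + 3 * (2 ^ (2 * i * n) * |(T : ℝ)|) := by
      unfold W.tl
      rw [abs_div, abs_of_pos (show (0 : ℝ) < 2 ^ (h * n) by positivity)]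
      refine (div_le_self (abs_nonneg _) (hp _)).trans ?_
      rw [Fin.sum_univ_two]
      refine (abs_add_le _ _).trans ((add_le_add (hk 0) (hk 1)).trans (le_of_eq ?_))
      ring
    have hT : 0 ≤ (2 : ℝ) ^ (2 * i * n) * |(T : ℝ)| := by positivity
    have hO : 0 ≤ (2 : ℝ) ^ ((i + 1) * n) * (|(o 0 : ℝ)| + |(o 1 : ℝ)|) := by positivity
    have h1 := hp (2 * K * n)
    nlinarith

/-- the amplitudes -/
noncomputable def toR {C : ℝ} {n h K : ℕ} (F : W.Amp C n h K) : Amp (max C 3) n K where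
  s := coneSl n h
  slp := slp_cone n K h (le_max_right _ _)
  A := fun i S G => F.A i S.toW G
  a := fun i S => F.a i S.toW
  a0 := fun i S => F.a0 i _
  A0 := fun i S G => F.A0 i _ G
  kid := fun i S hi hS => F.kid i _ hi hS
  tri := fun i S G G' hi hd => F.tri i _ G G' hi hd
  L1 := fun i S G hi hS hG => by
    have h1 := F.L1 i S.toW G hi hS hG
    have h0 : 0 ≤ ∑ τ' ∈ G, F.a (i + 1) ((S.toW.sg n).ch n h i τ') := Finset.sum_nonneg fun _ _ => F.a0 _ _
    simp only [toW_ch, toW_sg]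
    exact h1.trans (mul_le_mul_of_nonneg_right (le_max_left _ _) h0)
  B1 := fun i σ G hi hσ hG U hU => by
    have h1 := F.B1 i σ.toW G hi hσ hG (U.map emb) (by
      intro S hS
      rw [Finset.mem_map] at hS
      obtain ⟨S', hS', rfl⟩ := hS
      show S'.toW.sg n = σ.toW
      rw [← toW_sg, hU S' hS'])
    rw [Finset.sum_map] at h1
    have h0 : 0 ≤ ∑ τ' ∈ G, F.a (i + 1) (σ.toW.ch n h i τ') ^ 2 := Finset.sum_nonneg fun _ _ => sq_nonneg _
    simp only [toW_ch]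
    exact h1.trans (mul_le_mul_of_nonneg_right (mul_le_mul_of_nonneg_right (le_max_left _ _) (by positivity)) h0)
  B2 := fun i τ θ h1i hi hτ => by
    have hC3 : (3 : ℝ) ≤ max C 3 := le_max_right _ _
    refine ⟨![Real.cos θ, Real.sin θ], ?_, ?_, ?_, ?_⟩
    · have := Real.abs_cos_le_one θ
      simp only [Matrix.cons_val_zero]
      linarith
    · have := Real.abs_sin_le_one θ
      simp only [Matrix.cons_val_one, Matrix.cons_val_zero]
      linarith
    · intro τ' _ τ'' _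
      simp only [Matrix.cons_val_zero, Matrix.cons_val_one]
      have e : 2 ^ ((i + 1) * n) * |fn θ ((coneSl n h) (i + 1) τ') - fn θ ((coneSl n h) (i + 1) τ'')| =
          |-Real.sin θ * ((τ' 0 : ℝ) - τ'' 0) + Real.cos θ * ((τ' 1 : ℝ) - τ'' 1)| := by
        have hp : (0 : ℝ) < 2 ^ ((i + 1) * n) := by positivity
        have e1 : fn θ ((coneSl n h) (i + 1) τ') - fn θ ((coneSl n h) (i + 1) τ'') =
            (-Real.sin θ * ((τ' 0 : ℝ) - τ'' 0) + Real.cos θ * ((τ' 1 : ℝ) - τ'' 1)) / 2 ^ ((i + 1) * n) := by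
          unfold fn
          show -Real.sin θ * ((τ' 0 : ℝ) / 2 ^ ((i + 1) * n)) + Real.cos θ * ((τ' 1 : ℝ) / 2 ^ ((i + 1) * n)) -
            (-Real.sin θ * ((τ'' 0 : ℝ) / 2 ^ ((i + 1) * n)) + Real.cos θ * ((τ'' 1 : ℝ) / 2 ^ ((i + 1) * n))) = _
          ring
        rw [e1, abs_div, abs_of_pos hp, mul_div_cancel₀ _ hp.ne']
      rw [e]
      set x : ℝ := (τ' 0 : ℝ) - τ'' 0
      set y : ℝ := (τ' 1 : ℝ) - τ'' 1
      set p := Real.cos θ * x + Real.sin θ * y with hp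
      set q := -Real.sin θ * x + Real.cos θ * y with hq
      have hx : x = Real.cos θ * p - Real.sin θ * q := by
        rw [hp, hq]; linear_combination (-x) * Real.cos_sq_add_sin_sq θ
      have hy : y = Real.sin θ * p + Real.cos θ * q := by
        rw [hp, hq]; linear_combination (-y) * Real.cos_sq_add_sin_sq θ
      have c1 := Real.abs_cos_le_one θ
      have s1 := Real.abs_sin_le_one θ
      have p0 := abs_nonneg p
      have q0 := abs_nonneg q
      have ax : |x| ≤ |p| + |q| := by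
        rw [hx]
        refine (abs_sub _ _).trans ?_
        rw [abs_mul, abs_mul]
        nlinarith
      have ay : |y| ≤ |p| + |q| := by
        rw [hy]
        refine (abs_add_le _ _).trans ?_
        rw [abs_mul, abs_mul]
        nlinarith
      nlinarith
    · intro σ G k hσ hG hk U r hU
      subst hσ
      have h1 := F.B2 i θ h1i hi σ.toW G k hτ hG (by
        intro r'
        refine le_trans (le_of_eq ?_) (hk r')
        congr 1) (U.map emb) r (by
        intro S hS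
        rw [Finset.mem_map] at hS
        obtain ⟨S', hS', rfl⟩ := hS
        refine ⟨?_, (hU S' hS').2⟩
        show S'.toW.sg n = σ.toW
        rw [← toW_sg, (hU S' hS').1])
      rw [Finset.sum_map] at h1
      have h0 : 0 ≤ ∑ τ' ∈ G, F.a (i + 1) (σ.toW.ch n h i τ') ^ 2 := Finset.sum_nonneg fun _ _ => sq_nonneg _
      simp only [toW_ch]
      exact h1.trans (mul_le_mul_of_nonneg_right (mul_le_mul_of_nonneg_right (mul_le_mul_of_nonneg_right
        (le_max_left _ _) (by positivity)) (by positivity)) h0)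
  supp := fun S hS => by
    obtain ⟨a1, a2, a3, -⟩ := F.supp S.toW hS
    refine ⟨a1, a2, fun k => (a3 k).trans ?_⟩
    exact mul_le_mul_of_nonneg_right (le_max_left _ _) (by positivity)
  suppw := fun S hS => by
    obtain ⟨-, -, -, a4⟩ := F.supp S.toW hS
    refine le_trans a4 ?_
    exact mul_le_mul_of_nonneg_right (le_max_left _ _) (by positivity)

/-- inverse of the embedding -/
def emb' : W.Nd ↪ Nd := ⟨fun S => ⟨S.b.τ, S.b.o, S.b.T, S.w⟩, fun S S' h => by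
  simp only [Nd.mk.injEq] at h
  ext1
  · exact Vale.Agent.P122.C2.Nd.ext h.1 h.2.1 h.2.2.1
  · exact h.2.2.2⟩

theorem toW_emb' (S : W.Nd) : (emb' S).toW = S := rfl

/-- the Katz-Tao condition -/
theorem toR_KTop {C : ℝ} (hC : 1 ≤ C) : ∃ C' : ℝ, 1 ≤ C' ∧ ∀ {n h K : ℕ} (F : W.Amp C n h K) (Λ : ℝ), 0 ≤ Λ → W.KTop F Λ →
    KTop (toR F) (C' * Λ) := by
  obtain ⟨C', h1, h2⟩ := W.KTop.full hC
  refine ⟨C', h1, fun {n h K} F Λ hΛ hK B U hB hU => ?_⟩
  have h3 := h2 F Λ hΛ hK B (U.map emb) hB (by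
    intro S hS
    rw [Finset.mem_map] at hS
    obtain ⟨S', hS', rfl⟩ := hS
    exact hU S' hS')
  rw [Finset.sum_map] at h3
  exact h3

end Vale.Agent.P106.R.S
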