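import Vale.Agent.P106.R.S.Defs

/-! # P106 / R / S : monotonicity of E5, E6, E7, E8, E9 in the constants (copy of P122 / H563 / Mono; helper315) -/

set_option autoImplicit false

namespace Vale.Agent.P106.R.S

open Filter Topology Finset Vale.Agent.P127 Vale.Agent.P127.Stk Vale.Agent.P127.U Vale.Agent.P127.U.Sys
  Vale.Agent.P106.R.C2 Vale.Agent.P106.R.E

variable {A : ℝ}

theorem E5_mono {C C' : ℝ} (h : C ≤ C') (h5 : E5 A C) : E5 A C' := by
  intro K F J θ H e W kk jj hK hA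
  have hKp : (0 : ℝ) < K := by exact_mod_cast hK
  obtain ⟨a1, a2, a3⟩ := h5 F J θ H e W kk jj hK hA
  have hc : C / K ≤ C' / K := div_le_div_of_nonneg_right h hKp.le
  have hx : ∀ x : ℝ, 0 ≤ x → C * x / K ≤ C' * x / K := fun x hx =>
    div_le_div_of_nonneg_right (mul_le_mul_of_nonneg_right h hx) hKp.le
  refine ⟨fun i j hi hj => ?_, fun i hi => ?_, fun i j hij h2 hj => ?_⟩
  · have := a1 i j hi hj
    have := hx |(i : ℝ) - j| (abs_nonneg _)
    linarith
  · have := a2 i hi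
    have := hx i (Nat.cast_nonneg _)
    linarith
  · have := a3 i j hij h2 hj
    have := hx ((j : ℝ) - i) (by
      have : (i : ℝ) ≤ j := by exact_mod_cast hij
      linarith)
    linarith

theorem E6_mono {C C' : ℝ} (h : C ≤ C') (h6 : E6 A C) : E6 A C' := by
  intro K F J θ H e W kk jj hK hA c i j hij h2 hj hc2 hc w1 w2 w3 hal
  have hKp : (0 : ℝ) < K := by exact_mod_cast hK
  have h1 := h6 F J θ H e W kk jj hK hA c i j hij h2 hj hc2 hc w1 w2 w3 hal
  have hc : C / K ≤ C' / K := div_le_div_of_nonneg_right h hKp.le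
  have hx : C * |(c : ℝ) - i| / K ≤ C' * |(c : ℝ) - i| / K :=
    div_le_div_of_nonneg_right (mul_le_mul_of_nonneg_right h (abs_nonneg _)) hKp.le
  linarith

theorem E7_mono {C C' : ℝ} (h : C ≤ C') (h7 : E7 A C) : E7 A C' := by
  intro K F J θ H e W kk jj hK hA i j hij h2 hj w1
  have hKp : (0 : ℝ) < K := by exact_mod_cast hK
  have h1 := h7 F J θ H e W kk jj hK hA i j hij h2 hj w1
  have hc : C / K ≤ C' / K := div_le_div_of_nonneg_right h hKp.le
  linarith

theorem E9_mono {κ C C' : ℝ} (h : C ≤ C') (h9 : E9 A κ C) : E9 A κ C' := by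
  intro K F J θ H e W kk jj c1 φ JF hK hc1 hC hB i j u hij h2 hj hu w1 hκ ht ha
  have hKp : (0 : ℝ) < K := by exact_mod_cast hK
  have hc : C / K ≤ C' / K := div_le_div_of_nonneg_right h hKp.le
  have h1 := h9 F J θ H e W kk jj c1 φ JF hK hc1 (hc.trans hC) hB i j u hij h2 hj hu w1 hκ ht ha
  linarith

theorem Thin_mono {K : ℕ} {F : Flg K} {e : ℕ → ℝ} {jj : ℕ → ℕ → ℕ} {κ κ' c1 : ℝ} {c : ℕ} (h : κ ≤ κ') (hc1 : 0 ≤ c1)
    (ht : Thin F e jj κ c1 c) : Thin F e jj κ' c1 c :=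
  ⟨ht.1, ht.2.trans (mul_le_mul_of_nonneg_right h (hc1.trans ht.1))⟩

theorem E8_mono {κ κ' C C' : ℝ} (h : C ≤ C') (hκ : κ' ≤ κ) (h8 : E8 κ C) : E8 κ' C' := by
  intro K F J θ H e W kk jj hK hA c1 c c' d hc1 hc hcc hcd hd hdK w1 hs hC ht ht'
  have hKp : (0 : ℝ) < K := by exact_mod_cast hK
  have hc' : C / K ≤ C' / K := div_le_div_of_nonneg_right h hKp.le
  exact h8 F J θ H e W kk jj hK hA c1 c c' d hc1 hc hcc hcd hd hdK w1
    (hs.trans (mul_le_mul_of_nonneg_right hκ hc1.le)) (hc'.trans hC) (Thin_mono hκ hc1.le ht) (Thin_mono hκ hc1.le ht')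

end Vale.Agent.P106.R.S
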