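import Vale.Agent.P106.R.S.Mono
import Vale.Agent.P106.R.S.ProfOf
import Vale.Agent.P106.R.S.Bridge
import Vale.Agent.P106.W315.Crude

/-! # P106 / R / S : composition of [RG] and [EN] on the truncated cone, price `N ≥ 2` (helper315)

`W315.StPROF N` from the regular structure `StRG N κ` and the entropy blocks `E1`, ..., `E9` (price `N`). -/

set_option autoImplicit false

namespace Vale.Agent.P106.R.S

open Vale.Agent.P106.R.C2 Vale.Agent.P106.R.E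
open Vale.Agent.P106.W (Cbx)

/-- a violation of `StCORE N` for 117's amplitudes is one for the amplitudes of `P106 / R` -/
theorem transfer {N : ℝ} (hN : 0 < N) {δ C : ℝ} (hδ : 0 < δ) (hC : 1 ≤ C) {K h : ℕ} (hK : 1 ≤ K)
    (hv : ¬ Viol N (δ / 2) K h (max C 3)) : ∃ n0 : ℕ, ∀ n : ℕ, n0 ≤ n → ∀ (F : W.Amp C n h K) (Λ Q : ℝ), 0 ≤ Λ →
      W.KTop F Λ → (∀ U : Finset W.Nd, ∑ S ∈ U, F.a K S ^ 2 ≤ Q) →
      ∀ X : Finset W.Nd, (∀ x ∈ X, x.b.τ = 0 ∧ 0 ≤ x.b.T ∧ x.b.T < 2 ^ (2 * K * n)) →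
        ¬ 2 ^ (δ * (K * n)) * Λ ^ (1 / N) * 2 ^ (4 * K * n) * Q < ∑ x ∈ X, F.a 0 x ^ (2 + 2 / N) := by
  classical
  obtain ⟨C', hC', hKT⟩ := toR_KTop hC
  unfold Viol at hv
  push Not at hv
  obtain ⟨n0, hn0⟩ := hv
  have hC'0 : 0 < C' := by linarith
  -- the constant `C' ^ (1/N)` is smaller than `2 ^ (δ K n / 2)` for large `n`
  obtain ⟨n1, hn1⟩ := exists_nat_gt (2 / δ * Real.logb 2 (C' ^ (1 / N)))
  refine ⟨max n0 n1, fun n hn F Λ Q hΛ0 hΛ hQ X hX hlt => ?_⟩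
  have hn0' : n0 ≤ n := (le_max_left _ _).trans hn
  have hn1' : (n1 : ℝ) ≤ n := by exact_mod_cast (le_max_right _ _).trans hn
  have hcs : C' ^ (1 / N) ≤ (2 : ℝ) ^ (δ / 2 * (K * n)) := by
    have hp : 0 < C' ^ (1 / N) := Real.rpow_pos_of_pos hC'0 _
    rw [← Real.logb_le_iff_le_rpow (by norm_num) hp]
    have h1 : Real.logb 2 (C' ^ (1 / N)) ≤ δ / 2 * n := by
      have h2 : 2 / δ * Real.logb 2 (C' ^ (1 / N)) ≤ n := (hn1.trans_le hn1').le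
      have h3 : Real.logb 2 (C' ^ (1 / N)) = δ / 2 * (2 / δ * Real.logb 2 (C' ^ (1 / N))) := by field_simp
      rw [h3]
      exact mul_le_mul_of_nonneg_left h2 (by positivity)
    refine h1.trans (mul_le_mul_of_nonneg_left ?_ (by positivity))
    have : (1 : ℝ) ≤ K := by exact_mod_cast hK
    have : (0 : ℝ) ≤ n := Nat.cast_nonneg _
    nlinarith
  have hQ0 : 0 ≤ Q := by simpa using hQ ∅
  have hL : 0 ≤ Λ ^ (1 / N) := Real.rpow_nonneg hΛ0 _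
  have hQR : ∀ U : Finset Nd, ∑ S ∈ U, (toR F).a K S ^ 2 ≤ Q := fun U => by
    have := hQ (U.map emb)
    rwa [Finset.sum_map] at this
  have hX' : ∀ x ∈ X.map emb', x.τ = 0 ∧ 0 ≤ x.T ∧ x.T < 2 ^ (2 * K * n) := fun x hx => by
    rw [Finset.mem_map] at hx
    obtain ⟨y, hy, rfl⟩ := hx
    exact hX y hy
  have h1 := hn0 n hn0' (toR F) (C' * Λ) Q rfl (by positivity) (hKT F Λ hΛ0 hΛ) hQR (X.map emb') hX'
  rw [Finset.sum_map] at h1
  have h2 : ∑ x ∈ X, F.a 0 x ^ (2 + 2 / N) ≤ 2 ^ (δ / 2 * (K * n)) * rt N (C' * Λ) * 2 ^ (4 * K * n) * Q := h1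
  have h3 : rt N (C' * Λ) = C' ^ (1 / N) * Λ ^ (1 / N) := Real.mul_rpow hC'0.le hΛ0
  have h4 : (2 : ℝ) ^ (δ * (K * n)) = 2 ^ (δ / 2 * (K * n)) * 2 ^ (δ / 2 * (K * n)) := by
    rw [← Real.rpow_add (by norm_num)]
    congr 1
    ring
  have h5 : 2 ^ (δ / 2 * (K * n)) * rt N (C' * Λ) * 2 ^ (4 * K * n) * Q ≤
      2 ^ (δ * (K * n)) * Λ ^ (1 / N) * 2 ^ (4 * K * n) * Q := by
    rw [h3, h4]
    have : (2 : ℝ) ^ (δ / 2 * (K * n)) * (C' ^ (1 / N) * Λ ^ (1 / N)) ≤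
        2 ^ (δ / 2 * (K * n)) * 2 ^ (δ / 2 * (K * n)) * Λ ^ (1 / N) := by
      rw [mul_assoc]
      gcongr
    gcongr
  linarith

theorem prof_of {N : ℝ} (hN : 2 ≤ N) (h1 : E1) (h2 : E2) (h5 : StE5 N) (h6 : StE6 N) (h7 : StE7 N) (h8 : StE8)
    (h9 : StE9 N) (hRG : ∀ κ : ℝ, 0 < κ → κ ≤ 1 → StRG N κ) : W315.StPROF N := by
  obtain ⟨C5, h5⟩ := h5
  obtain ⟨C6, h6⟩ := h6
  obtain ⟨C7, h7⟩ := h7
  obtain ⟨κ8, hκ8, C8, h8⟩ := h8
  obtain ⟨κ9, hκ9, h9⟩ := h9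
  set κ := min 1 (min κ8 κ9) with hκd
  have hκ : 0 < κ := lt_min one_pos (lt_min hκ8 hκ9)
  have hκ1 : κ ≤ 1 := min_le_left _ _
  have hk8 : κ ≤ κ8 := (min_le_right _ _).trans (min_le_left _ _)
  have hk9 : κ ≤ κ9 := (min_le_right _ _).trans (min_le_right _ _)
  obtain ⟨C9, h9⟩ := h9 κ hκ hk9
  set C₀ := max 1 (max C5 (max C6 (max C7 (max C8 C9)))) with hC₀
  have hC1 : 1 ≤ C₀ := le_max_left _ _
  have e5 : E5 N C₀ := E5_mono ((le_max_left _ _).trans (le_max_right _ _)) h5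
  have e6 : E6 N C₀ := E6_mono (((le_max_left _ _).trans (le_max_right _ _)).trans (le_max_right _ _)) h6
  have e7 : E7 N C₀ := E7_mono ((((le_max_left _ _).trans (le_max_right _ _)).trans (le_max_right _ _)).trans
    (le_max_right _ _)) h7
  have e8 : E8 κ C₀ := E8_mono (((((le_max_left _ _).trans (le_max_right _ _)).trans (le_max_right _ _)).trans
    (le_max_right _ _)).trans (le_max_right _ _)) hk8 h8
  have e9 : E9 N κ C₀ := E9_mono (((((le_max_right _ _).trans (le_max_right _ _)).trans (le_max_right _ _)).trans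
    (le_max_right _ _)).trans (le_max_right _ _)) h9
  refine ⟨C₀, κ, hC1, hκ, hκ1, fun δ w c1 hδ hδ1 hw hc1 hc1w => ?_⟩
  obtain ⟨K1, hK1, hRG⟩ := hRG κ hκ hκ1 C₀ hC1 e8 (δ / 2) c1 (by positivity) hc1
  obtain ⟨K2, hK2⟩ := exists_nat_gt (C₀ / c1)
  refine ⟨max K1 K2, le_max_of_le_left hK1, fun K h hK hh2 hhw hhδ C hC => ?_⟩
  have hKK : 1 ≤ K := hK1.trans ((le_max_left _ _).trans hK)
  have hKp : (0 : ℝ) < K := by exact_mod_cast hKK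
  have hhK : h ≤ K := by
    have : (h : ℝ) ≤ K := hhδ.trans (by nlinarith)
    exact_mod_cast this
  have hCK : C₀ / K ≤ c1 := by
    have h3 : (K2 : ℝ) ≤ K := by exact_mod_cast (le_max_right K1 K2).trans hK
    have h4 := (div_lt_iff₀ hc1).1 hK2
    rw [div_le_iff₀ hKp]
    nlinarith
  by_cases hv : Viol N (δ / 2) K h (max C 3)
  · obtain ⟨F, J, θ, H, e, W, kk, jj, φ, JF, hFh, hB, hV⟩ := hRG K ((le_max_left _ _).trans hK) h hh2 hhK (max C 3)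
      (hC.trans (le_max_left _ _)) hv
    have hwF : 2 * w * K ≤ F.h := by rw [hFh]; exact hhw
    refine ⟨0, fun n _ F' Λ Q _ _ _ X _ _ => ⟨_, _, _, _, _, _,
      prof_of_regB h1 h2 e5 e6 e7 e9 hKK hc1 hCK hκ1 hc1w hwF hB, ?_⟩⟩
    have : δ ≤ N * (δ / 2) := by nlinarith
    linarith
  · obtain ⟨n0, hn0⟩ := transfer (by linarith) hδ hC hKK hv
    exact ⟨n0, fun n hn F' Λ Q hΛ0 hΛ hQ X hX hlt => absurd hlt (hn0 n hn F' Λ Q hΛ0 hΛ hQ X hX)⟩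

/-- `W.StCORE N` from the blocks of [RG] and [EN] -/
theorem core {N : ℝ} (hN : 2 ≤ N) (h1 : E1) (h2 : E2) (h5 : StE5 N) (h6 : StE6 N) (h7 : StE7 N) (h8 : StE8)
    (h9 : StE9 N) (hRG : ∀ κ : ℝ, 0 < κ → κ ≤ 1 → StRG N κ) : W.StCORE N :=
  W315.core_of Vale.Agent.P106.W518.stRVA (prof_of hN h1 h2 h5 h6 h7 h8 h9 hRG) (W315.crude (by linarith))

end Vale.Agent.P106.R.S
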